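import Vale.Agent.P368H.Loc

namespace P368H

open Matrix Finset

set_option linter.unusedSectionVars false
set_option linter.unusedSimpArgs false

variable {Q : Type} [Fintype Q] [DecidableEq Q]

/-- rotated local states -/
noncomputable def sig (b : Q → Bool) (v : Q → Matrix Bool Bool ℂ) (q : Q) : Matrix Bool Bool ℂ :=
  sg (b q) (v q)

theorem tr_sg (b : Bool) (v : Matrix Bool Bool ℂ) (hv : v ∈ Matrix.unitaryGroup Bool ℂ) :
    (sg b v).trace = if b = true then 0 else 1 := by
  cases b with
  | true =>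
    unfold sg dg
    rw [if_pos rfl, if_pos rfl, tr_hz, unit_conj v hv]
    simp
  | false =>
    unfold sg dg
    rw [if_neg (by simp), if_neg (by simp), tr_e0, unit_conj v hv]
    simp

theorem ten_unitary (v : Q → Matrix Bool Bool ℂ) (hv : ∀ q, v q ∈ Matrix.unitaryGroup Bool ℂ) :
    ten v ∈ Matrix.unitaryGroup (Q → Bool) ℂ := by
  rw [Matrix.mem_unitaryGroup_iff, Matrix.star_eq_conjTranspose, ten_star, ten_mul]
  simp only [fun q => unit_conj' (v q) (hv q)]
  exact ten_one

theorem sum_dg (b : Bool) : ∑ i, ∑ j, ‖dg b i j‖ = 1 := by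
  cases b <;> simp [dg, hz, e0, Fintype.sum_bool] <;> norm_num

theorem tr_bound (b : Q → Bool) (v : Q → Matrix Bool Bool ℂ)
    (hv : ∀ q, v q ∈ Matrix.unitaryGroup Bool ℂ) (R : Matrix (Q → Bool) (Q → Bool) ℂ)
    (hR : R ∈ Matrix.unitaryGroup (Q → Bool) ℂ) : ‖(ten (sig b v) * R).trace‖ ≤ 1 := by
  have hW := ten_unitary v hv
  have h1 : ten (sig b v) = ten v * ten (fun q => dg (b q)) * (ten v)ᴴ := by
    rw [ten_star, ten_mul, ten_mul]
    rfl
  have h2 : (ten (sig b v) * R).trace
      = (ten (fun q => dg (b q)) * ((ten v)ᴴ * R * ten v)).trace := by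
    rw [h1]
    have : ten v * ten (fun q => dg (b q)) * (ten v)ᴴ * R
        = ten v * (ten (fun q => dg (b q)) * (ten v)ᴴ * R) := by simp only [Matrix.mul_assoc]
    rw [this, Matrix.trace_mul_comm]
    simp only [Matrix.mul_assoc]
  have hWs : (ten v)ᴴ ∈ Matrix.unitaryGroup (Q → Bool) ℂ := by
    rw [← Matrix.star_eq_conjTranspose]
    exact Unitary.star_mem hW
  have hY : (ten v)ᴴ * R * ten v ∈ Matrix.unitaryGroup (Q → Bool) ℂ :=
    mul_mem (mul_mem hWs hR) hW
  rw [h2]
  set Y := (ten v)ᴴ * R * ten v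
  have h3 : (ten (fun q => dg (b q)) * Y).trace
      = ∑ z, ∑ y, ten (fun q => dg (b q)) z y * Y y z := by
    simp only [Matrix.trace, Matrix.diag, Matrix.mul_apply]
  rw [h3]
  have h4 : ∑ z : Q → Bool, ∑ y : Q → Bool, ∏ q, ‖dg (b q) (z q) (y q)‖ = 1 := by
    have h5 : ∀ z : Q → Bool, ∑ y : Q → Bool, ∏ q, ‖dg (b q) (z q) (y q)‖
        = ∏ q, ∑ j, ‖dg (b q) (z q) j‖ := by
      intro z
      rw [Finset.prod_univ_sum, Fintype.piFinset_univ]
    rw [Finset.sum_congr rfl fun z _ => h5 z]
    have h6 := Finset.prod_univ_sum (fun _ : Q => (Finset.univ : Finset Bool))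
      (fun q i => ∑ j, ‖dg (b q) i j‖)
    rw [Fintype.piFinset_univ] at h6
    rw [← h6]
    simp only [sum_dg, Finset.prod_const_one]
  rw [← h4]
  refine (norm_sum_le _ _).trans (Finset.sum_le_sum fun z _ => ?_)
  refine (norm_sum_le _ _).trans (Finset.sum_le_sum fun y _ => ?_)
  rw [norm_mul]
  have h7 := entry_norm_bound_of_unitary hY y z
  calc ‖ten (fun q => dg (b q)) z y‖ * ‖Y y z‖ ≤ ‖ten (fun q => dg (b q)) z y‖ * 1 :=
        mul_le_mul_of_nonneg_left h7 (norm_nonneg _)
    _ = ∏ q, ‖dg (b q) (z q) (y q)‖ := by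
        rw [mul_one]
        unfold ten
        rw [norm_prod]

theorem tr_pos (b : Q → Bool) (v : Q → Matrix Bool Bool ℂ)
    (hv : ∀ q, v q ∈ Matrix.unitaryGroup Bool ℂ) (P : Matrix (Q → Bool) (Q → Bool) ℂ)
    (h1 : Pᴴ = P) (h2 : P * P = P) :
    ‖(ten (sig b v) * P).trace‖ ≤ if ∃ q, b q = true then 1 / 2 else 1 := by
  have hR := refl_unitary P h1 h2
  have hb := tr_bound b v hv _ hR
  have hP : (ten (sig b v) * P).trace
      = (1 / 2 : ℂ) * ((ten (sig b v)).trace + (ten (sig b v) * ((2 : ℂ) • P - 1)).trace) := by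
    rw [mul_sub, mul_one, mul_smul_comm, trace_sub, trace_smul, smul_eq_mul]
    ring
  have ht : (ten (sig b v)).trace = if ∃ q, b q = true then 0 else 1 := by
    rw [ten_trace]
    split_ifs with h
    · obtain ⟨q, hq⟩ := h
      refine Finset.prod_eq_zero (Finset.mem_univ q) ?_
      unfold sig
      rw [tr_sg _ _ (hv q), if_pos hq]
    · push Not at h
      refine Finset.prod_eq_one fun q _ => ?_
      unfold sig
      rw [tr_sg _ _ (hv q), if_neg (h q)]
  have h4 : ‖(1 / 2 : ℂ)‖ = 1 / 2 := by norm_num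
  rw [hP, norm_mul, h4, ht]
  split_ifs with h
  · rw [zero_add]
    linarith
  · have h5 := norm_add_le (1 : ℂ) ((ten (sig b v) * ((2 : ℂ) • P - 1)).trace)
    rw [norm_one] at h5
    linarith

theorem val_congr2 (σ σ' β β' : Q → Matrix Bool Bool ℂ) (g : Toffoli Q)
    (h : ∀ q ∈ g.supp, β q = β' q) (hs : ∀ q ∈ g.supp, σ q = σ' q) :
    val σ β g = val σ' β' g := by
  rw [val_congr σ β β' g h]
  unfold val
  have h1 : ∏ q ∈ g.supp, (σ q * β' q).trace = ∏ q ∈ g.supp, (σ' q * β' q).trace :=
    Finset.prod_congr rfl fun q hq => by rw [hs q hq]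
  have h2 : ∏ q ∈ g.supp, (σ q * (pr g q * β' q)).trace
      = ∏ q ∈ g.supp, (σ' q * (pr g q * β' q)).trace :=
    Finset.prod_congr rfl fun q hq => by rw [hs q hq]
  have h3 : ∏ q ∈ g.supp, (σ q * (β' q * pr g q)).trace
      = ∏ q ∈ g.supp, (σ' q * (β' q * pr g q)).trace :=
    Finset.prod_congr rfl fun q hq => by rw [hs q hq]
  have h4 : ∏ q ∈ g.supp, (σ q * (pr g q * β' q * pr g q)).trace
      = ∏ q ∈ g.supp, (σ' q * (pr g q * β' q * pr g q)).trace :=
    Finset.prod_congr rfl fun q hq => by rw [hs q hq]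
  rw [h1, h2, h3, h4]

theorem proj_one : Proj (1 : Matrix Bool Bool ℂ) := ⟨conjTranspose_one, one_mul _⟩

theorem val_pos (b : Q → Bool) (v : Q → Matrix Bool Bool ℂ)
    (hv : ∀ q, v q ∈ Matrix.unitaryGroup Bool ℂ) (β : Q → Matrix Bool Bool ℂ) (g : Toffoli Q)
    (hβ : ∀ q ∈ g.supp, Proj (β q)) :
    ‖val (sig b v) β g‖ ≤ if ∃ q ∈ g.supp, b q = true then 1 / 2 else 1 := by
  set b' : Q → Bool := fun q => if q ∈ g.supp then b q else false with hb'
  set β' : Q → Matrix Bool Bool ℂ := fun q => if q ∈ g.supp then β q else 1 with hβ'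
  have hPr : ∀ q, Proj (β' q) := by
    intro q
    rw [hβ']
    dsimp only
    split_ifs with h
    · exact hβ q h
    · exact proj_one
  have hv1 : val (sig b v) β g = val (sig b' v) β' g := by
    apply val_congr2
    · intro q hq
      rw [hβ']
      dsimp only
      rw [if_pos hq]
    · intro q hq
      unfold sig
      rw [hb']
      dsimp only
      rw [if_pos hq]
  have hF := fact (sig b' v) [g] (List.pairwise_singleton _ g) β'
  have hrest : ∏ q ∈ rest [g], (sig b' v q * β' q).trace = 1 := by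
    refine Finset.prod_eq_one fun q hq => ?_
    have hq' : q ∉ g.supp := by
      unfold rest at hq
      rw [Finset.mem_filter] at hq
      exact hq.2 g (List.mem_singleton_self g)
    unfold sig
    rw [hb', hβ']
    dsimp only
    rw [if_neg hq', if_neg hq', mul_one, tr_sg _ _ (hv q), if_neg (by simp)]
  rw [hrest, mul_one, List.map_singleton, List.prod_singleton] at hF
  rw [hv1, ← hF]
  unfold Fn tof
  rw [List.map_singleton, List.prod_singleton, mat_star]
  have hT1 : (ten β')ᴴ = ten β' := by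
    rw [ten_star]
    congr 1
    funext q
    exact (hPr q).1
  have hT2 : ten β' * ten β' = ten β' := by
    rw [ten_mul]
    congr 1
    funext q
    exact (hPr q).2
  have hP1 : (g.mat * ten β' * g.mat)ᴴ = g.mat * ten β' * g.mat := by
    rw [conjTranspose_mul, conjTranspose_mul, mat_star, hT1]
    simp only [Matrix.mul_assoc]
  have hP2 : g.mat * ten β' * g.mat * (g.mat * ten β' * g.mat) = g.mat * ten β' * g.mat := by
    have : g.mat * ten β' * g.mat * (g.mat * ten β' * g.mat)
        = g.mat * (ten β' * ((g.mat * g.mat) * (ten β' * g.mat))) := by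
      simp only [Matrix.mul_assoc]
    rw [this, mat_sq, one_mul, ← Matrix.mul_assoc (ten β') (ten β'), hT2, Matrix.mul_assoc]
  refine (tr_pos b' v hv _ hP1 hP2).trans ?_
  have hiff : (∃ q, b' q = true) ↔ ∃ q ∈ g.supp, b q = true := by
    rw [hb']
    dsimp only
    constructor
    · rintro ⟨q, hq⟩
      by_cases h : q ∈ g.supp
      · rw [if_pos h] at hq
        exact ⟨q, h, hq⟩
      · rw [if_neg h] at hq
        simp at hq
    · rintro ⟨q, h, hq⟩
      exact ⟨q, by rw [if_pos h]; exact hq⟩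
  by_cases h : ∃ q ∈ g.supp, b q = true
  · rw [if_pos h, if_pos (hiff.mpr h)]
  · rw [if_neg h, if_neg (fun h' => h (hiff.mp h'))]

/-- unitary for `p1` -/
def u1 : Matrix Bool Bool ℂ := fun i j => if i = j then 0 else 1

/-- unitary for `pm` -/
noncomputable def um : Matrix Bool Bool ℂ :=
  fun i j => if i = true ∧ j = false then -((1 + Complex.I) / 2) else (1 + Complex.I) / 2

theorem rk_p1 : Rk p1 := by
  refine ⟨u1, ?_, ?_⟩
  · rw [Matrix.mem_unitaryGroup_iff, Matrix.star_eq_conjTranspose]
    ext i j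
    rw [Matrix.mul_apply, Fintype.sum_bool]
    simp only [Matrix.conjTranspose_apply]
    cases i <;> cases j <;> simp [u1]
  · ext i j
    rw [Matrix.mul_apply, Fintype.sum_bool, Matrix.mul_apply, Fintype.sum_bool,
      Matrix.mul_apply, Fintype.sum_bool]
    simp only [Matrix.conjTranspose_apply]
    cases i <;> cases j <;> simp [u1, p1, e0]

theorem cI : (1 + Complex.I) / 2 * (starRingEnd ℂ ((1 + Complex.I) / 2)) = 1 / 2 := by
  have h2 : (starRingEnd ℂ) 2 = 2 := map_ofNat (starRingEnd ℂ) 2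
  rw [map_div₀, map_add, map_one, Complex.conj_I, h2]
  linear_combination (-(1 / 4) : ℂ) * Complex.I_mul_I

theorem rk_pm : Rk pm := by
  have hc := cI
  refine ⟨um, ?_, ?_⟩
  · rw [Matrix.mem_unitaryGroup_iff, Matrix.star_eq_conjTranspose]
    ext i j
    rw [Matrix.mul_apply, Fintype.sum_bool]
    simp only [Matrix.conjTranspose_apply]
    have e1 : um false true = (1 + Complex.I) / 2 := by simp [um]
    have e2 : um false false = (1 + Complex.I) / 2 := by simp [um]
    have e3 : um true true = (1 + Complex.I) / 2 := by simp [um]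
    have e4 : um true false = -((1 + Complex.I) / 2) := by simp [um]
    have hs : ∀ z : ℂ, star z = starRingEnd ℂ z := fun z => rfl
    cases i <;> cases j <;> simp only [e1, e2, e3, e4, hs, map_neg, mul_neg, neg_mul, neg_neg, hc]
    · rw [Matrix.one_apply_eq]; norm_num
    · rw [Matrix.one_apply_ne (by simp)]; ring
    · rw [Matrix.one_apply_ne (by simp)]; ring
    · rw [Matrix.one_apply_eq]; norm_num
  · ext i j
    rw [Matrix.mul_apply, Fintype.sum_bool, Matrix.mul_apply, Fintype.sum_bool,
      Matrix.mul_apply, Fintype.sum_bool]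
    simp only [Matrix.conjTranspose_apply]
    have e1 : um false true = (1 + Complex.I) / 2 := by simp [um]
    have e2 : um false false = (1 + Complex.I) / 2 := by simp [um]
    have e3 : um true true = (1 + Complex.I) / 2 := by simp [um]
    have e4 : um true false = -((1 + Complex.I) / 2) := by simp [um]
    have f1 : e0 false false = 1 := by simp [e0]
    have f2 : e0 true false = 0 := by simp [e0]
    have f3 : e0 false true = 0 := by simp [e0]
    have f4 : e0 true true = 0 := by simp [e0]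
    have hs : ∀ z : ℂ, star z = starRingEnd ℂ z := fun z => rfl
    cases i <;> cases j <;>
      simp only [e1, e2, e3, e4, f1, f2, f3, f4, hs, map_neg, mul_neg, neg_mul, neg_neg, hc,
        mul_zero, zero_mul, mul_one, zero_add, add_zero, neg_zero] <;> simp [pm]

theorem pr_rk (g : Toffoli Q) (q : Q) (hq : q ∈ g.supp) : Rk (pr g q) := by
  unfold pr
  by_cases h : q = g.tgt
  · rw [if_pos h]; exact rk_pm
  · rw [if_neg h, if_pos]
    · exact rk_p1
    · unfold Toffoli.supp at hq
      rw [Finset.mem_insert] at hq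
      exact hq.resolve_left h

end P368H
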