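import Vale.Agent.P368H.Defs

namespace P368H

set_option linter.unusedSectionVars false
set_option linter.unusedSimpArgs false

open Matrix Finset

variable {Q : Type} [Fintype Q] [DecidableEq Q]

theorem ten_mul (A B : Q → Matrix Bool Bool ℂ) :
    ten A * ten B = ten (fun q => A q * B q) := by
  ext z y
  simp only [Matrix.mul_apply, ten]
  rw [Finset.prod_univ_sum, Fintype.piFinset_univ]
  refine Finset.sum_congr rfl fun w _ => ?_
  rw [← Finset.prod_mul_distrib]

theorem ten_trace (B : Q → Matrix Bool Bool ℂ) : (ten B).trace = ∏ q, (B q).trace := by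
  simp only [Matrix.trace, Matrix.diag, ten]
  rw [Finset.prod_univ_sum, Fintype.piFinset_univ]

theorem ten_one : ten (fun _ : Q => (1 : Matrix Bool Bool ℂ)) = 1 := by
  ext z y
  simp only [ten, Matrix.one_apply]
  by_cases h : z = y
  · subst h; simp
  · rw [if_neg h]
    obtain ⟨q, hq⟩ := Function.ne_iff.mp h
    exact Finset.prod_eq_zero (Finset.mem_univ q) (by simp [hq])

theorem ten_star (B : Q → Matrix Bool Bool ℂ) : (ten B)ᴴ = ten (fun q => (B q)ᴴ) := by
  ext z y
  simp [ten, Matrix.conjTranspose_apply]

/-- `|1><1|` -/
def p1 : Matrix Bool Bool ℂ := fun i j => if i = true ∧ j = true then 1 else 0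

/-- `|-><-|` -/
noncomputable def pm : Matrix Bool Bool ℂ := fun i j => if i = j then 1 / 2 else -(1 / 2)

/-- the projector of a Toffoli gate -/
noncomputable def pr (g : Toffoli Q) (q : Q) : Matrix Bool Bool ℂ :=
  if q = g.tgt then pm else if q ∈ g.ctl then p1 else 1

theorem pm_sq : pm * pm = pm := by
  ext i j; rw [Matrix.mul_apply, Fintype.sum_bool]
  cases i <;> cases j <;> simp [pm] <;> norm_num

theorem p1_sq : p1 * p1 = p1 := by
  ext i j; rw [Matrix.mul_apply, Fintype.sum_bool]
  cases i <;> cases j <;> simp [p1]

theorem pm_star : pmᴴ = pm := by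
  ext i j
  rw [Matrix.conjTranspose_apply]
  cases i <;> cases j <;> simp [pm]

theorem p1_star : p1ᴴ = p1 := by
  ext i j
  rw [Matrix.conjTranspose_apply]
  cases i <;> cases j <;> simp [p1]

theorem pr_sq (g : Toffoli Q) (q : Q) : pr g q * pr g q = pr g q := by
  unfold pr; split_ifs
  · exact pm_sq
  · exact p1_sq
  · exact one_mul _

theorem pr_star (g : Toffoli Q) (q : Q) : (pr g q)ᴴ = pr g q := by
  unfold pr; split_ifs
  · exact pm_star
  · exact p1_star
  · exact conjTranspose_one

theorem pr_off (g : Toffoli Q) (q : Q) (hq : q ∉ g.supp) : pr g q = 1 := by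
  unfold Toffoli.supp at hq
  rw [Finset.mem_insert, not_or] at hq
  unfold pr
  rw [if_neg hq.1, if_neg hq.2]

theorem mat_eq (g : Toffoli Q) : g.mat = 1 - (2 : ℂ) • ten (pr g) := by
  ext z y
  rw [Matrix.sub_apply, Matrix.smul_apply, Matrix.one_apply]
  unfold Toffoli.mat
  by_cases hoff : ∀ q, q ≠ g.tgt → z q = y q
  · by_cases hc : ∀ q ∈ g.ctl, y q = true
    · have hten : ten (pr g) z y = if z g.tgt = y g.tgt then 1 / 2 else -(1 / 2) := by
        unfold ten
        rw [Finset.prod_eq_single_of_mem g.tgt (Finset.mem_univ _)]
        · simp [pr, pm]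
        · intro q _ hq
          unfold pr
          rw [if_neg hq]
          split_ifs with h
          · simp [p1, hc q h, hoff q hq]
          · rw [hoff q hq]; exact Matrix.one_apply_eq _
      have hact : z = g.act y ↔ z g.tgt ≠ y g.tgt := by
        unfold Toffoli.act
        rw [decide_eq_true hc]
        constructor
        · intro h
          rw [h]
          simp
        · intro h
          funext q
          by_cases hq : q = g.tgt
          · subst hq
            rw [Function.update_self]
            revert h
            cases z g.tgt <;> cases y g.tgt <;> simp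
          · rw [Function.update_of_ne hq]
            exact hoff q hq
      have hzy : z = y ↔ z g.tgt = y g.tgt := by
        constructor
        · intro h; rw [h]
        · intro h
          funext q
          by_cases hq : q = g.tgt
          · subst hq; exact h
          · exact hoff q hq
      rw [hten]
      by_cases h : z g.tgt = y g.tgt
      · rw [if_neg (by rw [hact]; exact not_not.mpr h), if_pos (hzy.mpr h), if_pos h]
        norm_num
      · rw [if_pos (hact.mpr h), if_neg (by rw [hzy]; exact h), if_neg h]
        norm_num
    · have hact : g.act y = y := by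
        unfold Toffoli.act
        rw [decide_eq_false hc]
        simp
      have hten : ten (pr g) z y = 0 := by
        push Not at hc
        obtain ⟨q, hq, hyq⟩ := hc
        unfold ten
        refine Finset.prod_eq_zero (Finset.mem_univ q) ?_
        have hqt : q ≠ g.tgt := by
          rintro rfl
          exact g.tgt_notMem hq
        unfold pr
        rw [if_neg hqt, if_pos hq]
        simp [p1, hyq]
      rw [hact, hten]
      simp
  · have hz1 : z ≠ g.act y := by
      intro h
      apply hoff
      intro q hq
      rw [h]
      unfold Toffoli.act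
      rw [Function.update_of_ne hq]
    have hz2 : z ≠ y := by
      rintro rfl
      exact hoff fun _ _ => rfl
    have hten : ten (pr g) z y = 0 := by
      push Not at hoff
      obtain ⟨q, hq, hzq⟩ := hoff
      unfold ten
      refine Finset.prod_eq_zero (Finset.mem_univ q) ?_
      unfold pr
      rw [if_neg hq]
      split_ifs with h
      · unfold p1
        rw [if_neg]
        rintro ⟨h1, h2⟩
        exact hzq (h1.trans h2.symm)
      · exact Matrix.one_apply_ne hzq
    rw [if_neg hz1, if_neg hz2, hten]
    simp

theorem mat_star (g : Toffoli Q) : (g.mat)ᴴ = g.mat := by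
  rw [mat_eq, conjTranspose_sub, conjTranspose_one, conjTranspose_smul, ten_star]
  simp only [pr_star]
  congr 2
  simp

theorem ten_pr_sq (g : Toffoli Q) : ten (pr g) * ten (pr g) = ten (pr g) := by
  rw [ten_mul]
  simp only [pr_sq]

theorem mat_sq (g : Toffoli Q) : g.mat * g.mat = 1 := by
  rw [mat_eq]
  have h := ten_pr_sq g
  simp only [sub_mul, mul_sub, one_mul, mul_one, smul_mul_assoc, mul_smul_comm, h, smul_smul]
  module

theorem mat_unitary (g : Toffoli Q) : g.mat ∈ Matrix.unitaryGroup (Q → Bool) ℂ := by
  rw [Matrix.mem_unitaryGroup_iff, Matrix.star_eq_conjTranspose, mat_star, mat_sq]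

/-- conjugation of a product operator by one gate: four product operators -/
theorem conj_ten (g : Toffoli Q) (β : Q → Matrix Bool Bool ℂ) :
    g.mat * ten β * g.mat = ten β - (2 : ℂ) • ten (fun q => pr g q * β q)
      - (2 : ℂ) • ten (fun q => β q * pr g q) + (4 : ℂ) • ten (fun q => pr g q * β q * pr g q) := by
  rw [mat_eq, ← ten_mul, ← ten_mul]
  have h3 : ten (fun q => pr g q * β q * pr g q) = ten (pr g) * ten β * ten (pr g) := by
    rw [ten_mul, ten_mul]
  rw [h3]
  simp only [sub_mul, mul_sub, one_mul, mul_one, smul_mul_assoc, mul_smul_comm, smul_smul]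
  module

end P368H
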