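import Vale.Agent.P368H.Defs

/-!
# Parity correlation of a circuit
The register has `n` input qubits and `a` ancillas, `Fin n ⊕ Fin a`.
-/

namespace P368H

open Matrix Finset

variable {n a : ℕ}

/-- the initial basis state: input `x`, all ancillas `0` -/
def start (x : Fin n → Bool) : Fin n ⊕ Fin a → Bool := Sum.elim x (fun _ => false)

/-- the probability that measuring the qubit `o` gives `b` when the circuit `U` runs on `x` -/
noncomputable def prob (U : Matrix (Fin n ⊕ Fin a → Bool) (Fin n ⊕ Fin a → Bool) ℂ)
    (x : Fin n → Bool) (o : Fin n ⊕ Fin a) (b : Bool) : ℝ :=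
  ∑ z ∈ Finset.univ.filter (fun z : Fin n ⊕ Fin a → Bool => z o = b), ‖U z (start x)‖ ^ 2

/-- the parity of `x` -/
def parity (x : Fin n → Bool) : Bool :=
  decide (Odd (Finset.univ.filter (fun i => x i = true)).card)

/-- the parity correlation: average over `x` of the probability that the measured output is the
parity minus the probability that it is wrong -/
noncomputable def corr (U : Matrix (Fin n ⊕ Fin a → Bool) (Fin n ⊕ Fin a → Bool) ℂ)
    (o : Fin n ⊕ Fin a) : ℝ :=
  (∑ x : Fin n → Bool, (prob U x o (parity x) - prob U x o (!parity x))) / 2 ^ n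

end P368H
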