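import Mathlib

/-!
# Circuits of one-qubit gates and generalized Toffoli gates: definitions
A register is a finite type `Q` of qubits, basis states are functions `Q → Bool`, operators are
complex matrices indexed by basis states.
-/

namespace P368H

open Matrix Finset

variable {Q : Type} [Fintype Q] [DecidableEq Q]

/-- the tensor product of one-qubit operators `V q` -/
def ten (V : Q → Matrix Bool Bool ℂ) : Matrix (Q → Bool) (Q → Bool) ℂ :=
  fun z y => ∏ q, V q (z q) (y q)

/-- a generalized Toffoli gate: a nonempty set of controls and a target outside of it -/
structure Toffoli (Q : Type) where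
  /-- the control qubits -/
  ctl : Finset Q
  /-- the target qubit -/
  tgt : Q
  ctl_nonempty : ctl.Nonempty
  tgt_notMem : tgt ∉ ctl

/-- the qubits on which the gate acts -/
def Toffoli.supp (g : Toffoli Q) : Finset Q := insert g.tgt g.ctl

/-- action on basis states: the target is flipped iff all controls are `1` -/
def Toffoli.act (g : Toffoli Q) (y : Q → Bool) : Q → Bool :=
  Function.update y g.tgt (xor (y g.tgt) (decide (∀ q ∈ g.ctl, y q = true)))

/-- the (permutation) matrix of the gate: `|y⟩` goes to `|act y⟩` -/
def Toffoli.mat (g : Toffoli Q) : Matrix (Q → Bool) (Q → Bool) ℂ :=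
  fun z y => if z = g.act y then 1 else 0

/-- A layer: one-qubit unitaries `V q` (the identity where no one-qubit gate acts) followed by
Toffoli gates with pairwise disjoint supports. -/
structure Layer (Q : Type) [Fintype Q] [DecidableEq Q] where
  /-- the one-qubit gates -/
  V : Q → Matrix Bool Bool ℂ
  V_unitary : ∀ q, V q ∈ Matrix.unitaryGroup Bool ℂ
  /-- the Toffoli gates -/
  gates : List (Toffoli Q)
  disj : gates.Pairwise (fun g h => Disjoint g.supp h.supp)

/-- the product of the Toffoli gates of a list -/
def tof (l : List (Toffoli Q)) : Matrix (Q → Bool) (Q → Bool) ℂ := (l.map Toffoli.mat).prod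

/-- the unitary of a layer -/
def Layer.mat (L : Layer Q) : Matrix (Q → Bool) (Q → Bool) ℂ := tof L.gates * ten L.V

/-- the unitary of a circuit; the head of the list is the last layer applied -/
def circ (c : List (Layer Q)) : Matrix (Q → Bool) (Q → Bool) ℂ := (c.map Layer.mat).prod

/-- the number of layers which contain a Toffoli gate -/
def entDepth (c : List (Layer Q)) : ℕ := (c.filter (fun L => !L.gates.isEmpty)).length

end P368H
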