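import Vale.Agent.P368H.Core

namespace P368H

open Matrix Finset

set_option linter.unusedSectionVars false
set_option linter.unusedSimpArgs false

variable {Q : Type} [Fintype Q] [DecidableEq Q]

/-- contribution of a gate -/
noncomputable def val (σ β : Q → Matrix Bool Bool ℂ) (g : Toffoli Q) : ℂ :=
  ∏ q ∈ g.supp, (σ q * β q).trace - 2 * ∏ q ∈ g.supp, (σ q * (pr g q * β q)).trace
    - 2 * ∏ q ∈ g.supp, (σ q * (β q * pr g q)).trace
    + 4 * ∏ q ∈ g.supp, (σ q * (pr g q * β q * pr g q)).trace

/-- qubits not touched by the gates of the list -/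
def rest (l : List (Toffoli Q)) : Finset Q := Finset.univ.filter (fun q => ∀ g ∈ l, q ∉ g.supp)

/-- expectation functional -/
noncomputable def Fn (σ : Q → Matrix Bool Bool ℂ) (l : List (Toffoli Q))
    (X : Matrix (Q → Bool) (Q → Bool) ℂ) : ℂ := (ten σ * ((tof l)ᴴ * X * tof l)).trace

theorem Fn_cons (σ : Q → Matrix Bool Bool ℂ) (g : Toffoli Q) (l : List (Toffoli Q))
    (X : Matrix (Q → Bool) (Q → Bool) ℂ) : Fn σ (g :: l) X = Fn σ l (g.mat * X * g.mat) := by
  unfold Fn tof
  rw [List.map_cons, List.prod_cons, conjTranspose_mul, mat_star]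
  simp only [Matrix.mul_assoc]

theorem Fn_lin (σ : Q → Matrix Bool Bool ℂ) (l : List (Toffoli Q))
    (A B C D : Matrix (Q → Bool) (Q → Bool) ℂ) :
    Fn σ l (A - (2 : ℂ) • B - (2 : ℂ) • C + (4 : ℂ) • D) =
      Fn σ l A - 2 * Fn σ l B - 2 * Fn σ l C + 4 * Fn σ l D := by
  unfold Fn
  simp only [mul_add, mul_sub, add_mul, sub_mul, smul_mul_assoc, mul_smul_comm, trace_add,
    trace_sub, trace_smul, smul_eq_mul]

theorem rest_cons (g : Toffoli Q) (l : List (Toffoli Q))
    (h : ∀ g' ∈ l, Disjoint g.supp g'.supp) {M : Type*} [CommMonoid M] (f : Q → M) :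
    ∏ q ∈ rest l, f q = (∏ q ∈ g.supp, f q) * ∏ q ∈ rest (g :: l), f q := by
  have hsub : g.supp ⊆ rest l := by
    intro q hq
    unfold rest
    rw [Finset.mem_filter]
    refine ⟨Finset.mem_univ _, fun g' hg' hq' => ?_⟩
    exact (Finset.disjoint_left.mp (h g' hg')) hq hq'
  have hr : rest (g :: l) = rest l \ g.supp := by
    ext q
    unfold rest
    simp only [Finset.mem_filter, Finset.mem_univ, true_and, List.mem_cons, forall_eq_or_imp,
      Finset.mem_sdiff]
    tauto
  rw [hr, mul_comm, Finset.prod_sdiff hsub]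

theorem val_congr (σ β β' : Q → Matrix Bool Bool ℂ) (g : Toffoli Q)
    (h : ∀ q ∈ g.supp, β q = β' q) : val σ β g = val σ β' g := by
  unfold val
  have h1 : ∏ q ∈ g.supp, (σ q * β q).trace = ∏ q ∈ g.supp, (σ q * β' q).trace :=
    Finset.prod_congr rfl fun q hq => by rw [h q hq]
  have h2 : ∏ q ∈ g.supp, (σ q * (pr g q * β q)).trace
      = ∏ q ∈ g.supp, (σ q * (pr g q * β' q)).trace :=
    Finset.prod_congr rfl fun q hq => by rw [h q hq]
  have h3 : ∏ q ∈ g.supp, (σ q * (β q * pr g q)).trace
      = ∏ q ∈ g.supp, (σ q * (β' q * pr g q)).trace :=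
    Finset.prod_congr rfl fun q hq => by rw [h q hq]
  have h4 : ∏ q ∈ g.supp, (σ q * (pr g q * β q * pr g q)).trace
      = ∏ q ∈ g.supp, (σ q * (pr g q * β' q * pr g q)).trace :=
    Finset.prod_congr rfl fun q hq => by rw [h q hq]
  rw [h1, h2, h3, h4]

theorem fact (σ : Q → Matrix Bool Bool ℂ) (l : List (Toffoli Q))
    (hl : l.Pairwise (fun g h => Disjoint g.supp h.supp)) :
    ∀ β : Q → Matrix Bool Bool ℂ,
      Fn σ l (ten β) = (l.map (val σ β)).prod * ∏ q ∈ rest l, (σ q * β q).trace := by
  induction l with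
  | nil =>
    intro β
    unfold Fn tof rest
    simp only [List.map_nil, List.prod_nil, conjTranspose_one, one_mul, mul_one]
    rw [ten_mul, ten_trace]
    simp
  | cons g l ih =>
    intro β
    rw [List.pairwise_cons] at hl
    have ih' := ih hl.2
    rw [Fn_cons, conj_ten, Fn_lin, ih', ih', ih', ih']
    have key : ∀ β' : Q → Matrix Bool Bool ℂ, (∀ q ∉ g.supp, β' q = β q) →
        (l.map (val σ β')).prod * ∏ q ∈ rest l, (σ q * β' q).trace
          = (l.map (val σ β)).prod * ((∏ q ∈ g.supp, (σ q * β' q).trace)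
            * ∏ q ∈ rest (g :: l), (σ q * β q).trace) := by
      intro β' hβ'
      have h1 : l.map (val σ β') = l.map (val σ β) := by
        apply List.map_congr_left
        intro g' hg'
        apply val_congr
        intro q hq
        exact hβ' q fun hq' => (Finset.disjoint_left.mp (hl.1 g' hg')) hq' hq
      rw [h1, rest_cons g l hl.1 (fun q => (σ q * β' q).trace)]
      congr 2
      apply Finset.prod_congr rfl
      intro q hq
      rw [hβ' q]
      unfold rest at hq
      rw [Finset.mem_filter] at hq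
      exact hq.2 g (List.mem_cons_self)
    rw [key β (fun q _ => rfl), key (fun q => pr g q * β q) (fun q hq => by
        simp only [pr_off g q hq, one_mul]),
      key (fun q => β q * pr g q) (fun q hq => by simp only [pr_off g q hq, mul_one]),
      key (fun q => pr g q * β q * pr g q) (fun q hq => by
        simp only [pr_off g q hq, mul_one, one_mul])]
    rw [List.map_cons, List.prod_cons]
    unfold val
    ring

end P368H
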