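import Vale.Agent.P368H.Blk

namespace P368H

open Matrix Finset

set_option linter.unusedSectionVars false
set_option linter.unusedSimpArgs false

variable {Q : Type} [Fintype Q] [DecidableEq Q]

theorem cc_nonneg (b : Bool) : 0 ≤ cc b := by cases b <;> simp [cc]

theorem cc_le (b : Bool) : cc b ≤ 1 := by cases b <;> norm_num [cc]

theorem cc_ge (b : Bool) : 1 / 2 ≤ cc b := by cases b <;> norm_num [cc]

theorem norm4 (A B C D : ℂ) : ‖A - 2 * B - 2 * C + 4 * D‖ ≤ ‖A‖ + 2 * ‖B‖ + 2 * ‖C‖ + 4 * ‖D‖ := by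
  have h1 := norm_add_le (A - 2 * B - 2 * C) (4 * D)
  have h2 := norm_sub_le (A - 2 * B) (2 * C)
  have h3 := norm_sub_le A (2 * B)
  have e2 : ‖(2 : ℂ)‖ = 2 := by norm_num
  have e4 : ‖(4 : ℂ)‖ = 4 := by norm_num
  rw [norm_mul, e4] at h1
  rw [norm_mul, e2] at h2 h3
  linarith

/-- crude bound for a gate -/
theorem val_crude (b : Q → Bool) (v : Q → Matrix Bool Bool ℂ)
    (hv : ∀ q, v q ∈ Matrix.unitaryGroup Bool ℂ) (β : Q → Matrix Bool Bool ℂ) (g : Toffoli Q)
    (o : Q) (hβ : ∀ q, q ≠ o → Proj (β q)) (hA : ∀ q, Av 1 (β q)) :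
    ‖val (sig b v) β g‖ ≤ ((if o ∈ g.supp then 2 else 1) + 8) * ∏ q ∈ g.supp, cc (b q) := by
  unfold val
  refine (norm4 _ _ _ _).trans ?_
  rw [norm_prod, norm_prod, norm_prod, norm_prod]
  have h1 : ∏ q ∈ g.supp, ‖(sig b v q * β q).trace‖
      ≤ (if o ∈ g.supp then 2 else 1) * ∏ q ∈ g.supp, cc (b q) := by
    have e1 : (if o ∈ g.supp then (2 : ℝ) else 1) = ∏ q ∈ g.supp, (if q = o then (2 : ℝ) else 1) := by
      rw [Finset.prod_ite_eq']
    rw [e1, ← Finset.prod_mul_distrib]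
    apply Finset.prod_le_prod (fun _ _ => norm_nonneg _)
    intro q _
    by_cases hq : q = o
    · rw [if_pos hq]
      have h2 := t5 (b q) (v q) (hv q) (β q) (hA q)
      have h3 := cc_ge (b q)
      unfold sig
      linarith
    · rw [if_neg hq, one_mul]
      exact t1 (b q) (v q) (hv q) (β q) (hβ q hq)
  have h2 : ∏ q ∈ g.supp, ‖(sig b v q * (pr g q * β q)).trace‖ ≤ ∏ q ∈ g.supp, cc (b q) :=
    Finset.prod_le_prod (fun _ _ => norm_nonneg _) fun q hq =>
      t2 (b q) (v q) (hv q) (β q) (pr g q) (hA q) (pr_rk g q hq)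
  have h3 : ∏ q ∈ g.supp, ‖(sig b v q * (β q * pr g q)).trace‖ ≤ ∏ q ∈ g.supp, cc (b q) :=
    Finset.prod_le_prod (fun _ _ => norm_nonneg _) fun q hq =>
      t3 (b q) (v q) (hv q) (β q) (pr g q) (hA q) (pr_rk g q hq)
  have h4 : ∏ q ∈ g.supp, ‖(sig b v q * (pr g q * β q * pr g q)).trace‖
      ≤ ∏ q ∈ g.supp, cc (b q) :=
    Finset.prod_le_prod (fun _ _ => norm_nonneg _) fun q hq =>
      t4 (b q) (v q) (hv q) (β q) (pr g q) (hA q) (pr_rk g q hq)
  linarith

theorem prod_cc (b : Q → Bool) (s : Finset Q) :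
    ∏ q ∈ s, cc (b q) = (1 / 2) ^ (s.filter (fun q => b q = true)).card := by
  unfold cc
  rw [Finset.prod_ite, Finset.prod_const, Finset.prod_const_one, mul_one]

theorem val4 (b : Q → Bool) (v : Q → Matrix Bool Bool ℂ)
    (hv : ∀ q, v q ∈ Matrix.unitaryGroup Bool ℂ) (β : Q → Matrix Bool Bool ℂ) (g : Toffoli Q)
    (o : Q) (hβ : ∀ q, q ≠ o → Proj (β q)) (hA : ∀ q, Av 1 (β q)) :
    ‖val (sig b v) β g‖ ^ 4 ≤ ∏ q ∈ g.supp, (cc (b q) * (if q = o then 10 ^ 4 else 1)) := by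
  have hcr := val_crude b v hv β g o hβ hA
  rw [Finset.prod_mul_distrib, Finset.prod_ite_eq']
  have hC0 : 0 ≤ ∏ q ∈ g.supp, cc (b q) := Finset.prod_nonneg fun q _ => cc_nonneg _
  have hC1 : ∏ q ∈ g.supp, cc (b q) ≤ 1 := Finset.prod_le_one (fun q _ => cc_nonneg _)
    fun q _ => cc_le _
  have hN := norm_nonneg (val (sig b v) β g)
  by_cases ho : o ∈ g.supp
  · rw [if_pos ho] at hcr ⊢
    generalize (∏ q ∈ g.supp, cc (b q)) = C at *
    generalize ‖val (sig b v) β g‖ = N at *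
    have h1 : N ^ 4 ≤ ((2 + 8) * C) ^ 4 := pow_le_pow_left₀ hN hcr 4
    have h2 : C ^ 4 ≤ C := by
      have : C ^ 3 ≤ 1 := pow_le_one₀ hC0 hC1
      nlinarith
    calc N ^ 4 ≤ ((2 + 8) * C) ^ 4 := h1
      _ = 10 ^ 4 * C ^ 4 := by ring
      _ ≤ 10 ^ 4 * C := by linarith
      _ = C * 10 ^ 4 := by ring
  · rw [if_neg ho] at hcr ⊢
    have hp := val_pos b v hv β g (fun q hq => hβ q (fun h => ho (h ▸ hq)))
    have hpc := prod_cc b g.supp
    set k := (g.supp.filter (fun q => b q = true)).card with hk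
    rw [mul_one]
    by_cases hk0 : k = 0
    · have hne : ¬ ∃ q ∈ g.supp, b q = true := by
        rintro ⟨q, hq, hb⟩
        have : q ∈ g.supp.filter (fun q => b q = true) := Finset.mem_filter.mpr ⟨hq, hb⟩
        have h0 : 0 < (g.supp.filter (fun q => b q = true)).card := Finset.card_pos.mpr ⟨q, this⟩
        omega
      rw [if_neg hne] at hp
      rw [hpc, hk0, pow_zero]
      exact pow_le_one₀ hN hp
    · have hex : ∃ q ∈ g.supp, b q = true := by
        obtain ⟨q, hq⟩ := Finset.card_pos.mp (Nat.pos_of_ne_zero hk0)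
        rw [Finset.mem_filter] at hq
        exact ⟨q, hq.1, hq.2⟩
      rw [if_pos hex] at hp
      rw [hpc] at hcr ⊢
      generalize ‖val (sig b v) β g‖ = N at *
      by_cases hk5 : k ≤ 4
      · have h1 : N ^ 4 ≤ (1 / 2) ^ 4 := pow_le_pow_left₀ hN hp 4
        exact h1.trans (pow_le_pow_of_le_one (by norm_num) (by norm_num) hk5)
      · have h1 : N ^ 4 ≤ ((1 + 8) * (1 / 2) ^ k) ^ 4 := pow_le_pow_left₀ hN hcr 4
        have h2 : (1 / 2 : ℝ) ^ k ≤ (1 / 2) ^ 5 :=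
          pow_le_pow_of_le_one (by norm_num) (by norm_num) (by omega)
        have h0 : 0 ≤ (1 / 2 : ℝ) ^ k := by positivity
        generalize (1 / 2 : ℝ) ^ k = C at *
        have h3 : C ^ 3 ≤ ((1 / 2) ^ 5) ^ 3 := pow_le_pow_left₀ h0 h2 3
        calc N ^ 4 ≤ ((1 + 8) * C) ^ 4 := h1
          _ = 6561 * C ^ 3 * C := by ring
          _ ≤ 6561 * ((1 / 2) ^ 5) ^ 3 * C := by
              apply mul_le_mul_of_nonneg_right _ h0
              linarith
          _ ≤ 1 * C := by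
              apply mul_le_mul_of_nonneg_right _ h0
              norm_num
          _ = C := one_mul C

theorem prod_all (l : List (Toffoli Q)) (hl : l.Pairwise (fun g h => Disjoint g.supp h.supp))
    (f : Q → ℝ) : ∏ q, f q = (l.map (fun g => ∏ q ∈ g.supp, f q)).prod * ∏ q ∈ rest l, f q := by
  induction l with
  | nil => simp [rest]
  | cons g l ih =>
    rw [List.pairwise_cons] at hl
    rw [ih hl.2, rest_cons g l hl.1 f, List.map_cons, List.prod_cons]
    ring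

theorem list_bound (l : List (Toffoli Q)) (V : Toffoli Q → ℂ) (W : Toffoli Q → ℝ)
    (h : ∀ g ∈ l, ‖V g‖ ^ 4 ≤ W g) : ‖(l.map V).prod‖ ^ 4 ≤ (l.map W).prod := by
  induction l with
  | nil => simp
  | cons g l ih =>
    rw [List.map_cons, List.prod_cons, List.map_cons, List.prod_cons, norm_mul, mul_pow]
    have h1 := h g List.mem_cons_self
    have h2 := ih fun g' hg' => h g' (List.mem_cons_of_mem g hg')
    exact mul_le_mul h1 h2 (by positivity) (le_trans (by positivity) h1)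

/-- the bound for a product observable behind one Toffoli layer -/
theorem Fn_bound (b : Q → Bool) (v : Q → Matrix Bool Bool ℂ)
    (hv : ∀ q, v q ∈ Matrix.unitaryGroup Bool ℂ) (l : List (Toffoli Q))
    (hl : l.Pairwise (fun g h => Disjoint g.supp h.supp)) (β : Q → Matrix Bool Bool ℂ)
    (o : Q) (hβ : ∀ q, q ≠ o → Proj (β q)) (hA : ∀ q, Av 1 (β q)) :
    ‖Fn (sig b v) l (ten β)‖ ^ 4 ≤ 10 ^ 4 * ∏ q, cc (b q) := by
  rw [fact (sig b v) l hl β, norm_mul, mul_pow]
  have h1 := list_bound l (val (sig b v) β)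
    (fun g => ∏ q ∈ g.supp, (cc (b q) * (if q = o then 10 ^ 4 else 1)))
    (fun g _ => val4 b v hv β g o hβ hA)
  have h2 : ‖∏ q ∈ rest l, (sig b v q * β q).trace‖ ^ 4
      ≤ ∏ q ∈ rest l, (cc (b q) * (if q = o then 10 ^ 4 else 1)) := by
    rw [norm_prod, ← Finset.prod_pow]
    apply Finset.prod_le_prod (fun _ _ => by positivity)
    intro q _
    have hc0 := cc_nonneg (b q)
    have hc1 := cc_le (b q)
    have hc2 := cc_ge (b q)
    by_cases hq : q = o
    · rw [if_pos hq]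
      have h2 := t5 (b q) (v q) (hv q) (β q) (hA q)
      have h3 : ‖(sig b v q * β q).trace‖ ^ 4 ≤ 1 := pow_le_one₀ (norm_nonneg _) h2
      linarith
    · rw [if_neg hq, mul_one]
      have h2 := t1 (b q) (v q) (hv q) (β q) (hβ q hq)
      have h3 : ‖(sig b v q * β q).trace‖ ^ 4 ≤ (cc (b q)) ^ 4 :=
        pow_le_pow_left₀ (norm_nonneg _) h2 4
      have h4 : (cc (b q)) ^ 3 ≤ 1 := pow_le_one₀ hc0 hc1
      calc ‖(sig b v q * β q).trace‖ ^ 4 ≤ (cc (b q)) ^ 4 := h3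
        _ = (cc (b q)) ^ 3 * cc (b q) := by ring
        _ ≤ 1 * cc (b q) := mul_le_mul_of_nonneg_right h4 hc0
        _ = cc (b q) := one_mul _
  have h3 := prod_all l hl (fun q => cc (b q) * (if q = o then (10 : ℝ) ^ 4 else 1))
  have h4 : ∏ q, (cc (b q) * (if q = o then (10 : ℝ) ^ 4 else 1)) = 10 ^ 4 * ∏ q, cc (b q) := by
    rw [Finset.prod_mul_distrib, Finset.prod_ite_eq', if_pos (Finset.mem_univ o), mul_comm]
  rw [← h4, h3]
  exact mul_le_mul h1 h2 (by positivity) (le_trans (by positivity) h1)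

end P368H
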