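import Vale.Agent.P368H.Fact

namespace P368H

open Matrix Finset

set_option linter.unusedSectionVars false
set_option linter.unusedSimpArgs false

/-- `2 x 2` unitary matrices -/
abbrev UU : Set (Matrix Bool Bool ℂ) := {u | u ∈ Matrix.unitaryGroup Bool ℂ}

/-- bounded by `c` in every pair of orthonormal bases -/
def Av (c : ℝ) (X : Matrix Bool Bool ℂ) : Prop :=
  ∀ u w : Matrix Bool Bool ℂ, u ∈ Matrix.unitaryGroup Bool ℂ → w ∈ Matrix.unitaryGroup Bool ℂ →
    ∀ i j, ‖(u * X * w) i j‖ ≤ c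

/-- projection -/
def Proj (X : Matrix Bool Bool ℂ) : Prop := Xᴴ = X ∧ X * X = X

theorem refl_unitary {n : Type*} [Fintype n] [DecidableEq n] (P : Matrix n n ℂ) (h1 : Pᴴ = P)
    (h2 : P * P = P) : (2 : ℂ) • P - 1 ∈ Matrix.unitaryGroup n ℂ := by
  rw [Matrix.mem_unitaryGroup_iff, Matrix.star_eq_conjTranspose, conjTranspose_sub,
    conjTranspose_smul, h1, conjTranspose_one]
  have h3 : star (2 : ℂ) = 2 := by simp
  rw [h3]
  simp only [sub_mul, mul_sub, one_mul, mul_one, smul_mul_assoc, mul_smul_comm, h2]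
  module

theorem av_unitary (X : Matrix Bool Bool ℂ) (hX : X ∈ Matrix.unitaryGroup Bool ℂ) : Av 1 X := by
  intro u w hu hw i j
  exact entry_norm_bound_of_unitary (mul_mem (mul_mem hu hX) hw) i j

theorem av_unit_left (c : ℝ) (X R : Matrix Bool Bool ℂ) (hX : Av c X)
    (hR : R ∈ Matrix.unitaryGroup Bool ℂ) : Av c (R * X) := by
  intro u w hu hw i j
  have h := hX (u * R) w (mul_mem hu hR) hw i j
  rwa [Matrix.mul_assoc u R X] at h

theorem av_unit_right (c : ℝ) (X R : Matrix Bool Bool ℂ) (hX : Av c X)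
    (hR : R ∈ Matrix.unitaryGroup Bool ℂ) : Av c (X * R) := by
  intro u w hu hw i j
  have h := hX u (R * w) hu (mul_mem hR hw) i j
  have h2 : u * X * (R * w) = u * (X * R) * w := by simp only [Matrix.mul_assoc]
  rwa [h2] at h

theorem av_avg (c : ℝ) (X Y Z : Matrix Bool Bool ℂ) (hX : Av c X) (hY : Av c Y)
    (hZ : Z = (1 / 2 : ℂ) • (X + Y)) : Av c Z := by
  intro u w hu hw i j
  have h : u * Z * w = (1 / 2 : ℂ) • (u * X * w + u * Y * w) := by
    rw [hZ]
    simp only [smul_mul_assoc, mul_smul_comm, mul_add, add_mul]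
  rw [h, Matrix.smul_apply, Matrix.add_apply, smul_eq_mul, norm_mul]
  have h1 := hX u w hu hw i j
  have h2 := hY u w hu hw i j
  have h3 := norm_add_le ((u * X * w) i j) ((u * Y * w) i j)
  have h4 : ‖(1 / 2 : ℂ)‖ = 1 / 2 := by norm_num
  rw [h4]
  linarith

theorem av_proj_left (c : ℝ) (X P : Matrix Bool Bool ℂ) (hX : Av c X) (hP : Proj P) :
    Av c (P * X) := by
  apply av_avg c X (((2 : ℂ) • P - 1) * X) _ hX
    (av_unit_left c X _ hX (refl_unitary P hP.1 hP.2))
  rw [sub_mul, one_mul, smul_mul_assoc]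
  module

theorem av_proj_right (c : ℝ) (X P : Matrix Bool Bool ℂ) (hX : Av c X) (hP : Proj P) :
    Av c (X * P) := by
  apply av_avg c X (X * ((2 : ℂ) • P - 1)) _ hX
    (av_unit_right c X _ hX (refl_unitary P hP.1 hP.2))
  rw [mul_sub, mul_one, mul_smul_comm]
  module

theorem av_proj (P : Matrix Bool Bool ℂ) (hP : Proj P) : Av 1 P := by
  have := av_proj_left 1 1 P (av_unitary 1 (one_mem _)) hP
  rwa [mul_one] at this

/-- `|0><0|` -/
def e0 : Matrix Bool Bool ℂ := fun i j => if i = false ∧ j = false then 1 else 0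

/-- half of the Pauli matrix `Z` -/
noncomputable def hz : Matrix Bool Bool ℂ :=
  fun i j => if i = j then (if i = false then 1 / 2 else -(1 / 2)) else 0

/-- local state: half of `Z` at an input, `|0><0|` at an ancilla -/
noncomputable def dg (b : Bool) : Matrix Bool Bool ℂ := if b = true then hz else e0

/-- weight -/
noncomputable def cc (b : Bool) : ℝ := if b = true then 1 / 2 else 1

theorem e0_proj : Proj e0 := by
  constructor
  · ext i j
    rw [Matrix.conjTranspose_apply]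
    cases i <;> cases j <;> simp [e0]
  · ext i j; rw [Matrix.mul_apply, Fintype.sum_bool]
    cases i <;> cases j <;> simp [e0]

theorem tr_e0 (A B : Matrix Bool Bool ℂ) : (A * e0 * B).trace = (B * A) false false := by
  simp [Matrix.trace, Matrix.mul_apply, e0, Fintype.sum_bool]
  ring

theorem tr_hz (A B : Matrix Bool Bool ℂ) :
    (A * hz * B).trace = (1 / 2) * ((B * A) false false - (B * A) true true) := by
  simp [Matrix.trace, Matrix.mul_apply, hz, Fintype.sum_bool]
  ring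

theorem unit_conj (u : Matrix Bool Bool ℂ) (hu : u ∈ Matrix.unitaryGroup Bool ℂ) :
    uᴴ * u = 1 := by
  have := Matrix.mem_unitaryGroup_iff'.mp hu
  rwa [Matrix.star_eq_conjTranspose] at this

theorem unit_conj' (u : Matrix Bool Bool ℂ) (hu : u ∈ Matrix.unitaryGroup Bool ℂ) :
    u * uᴴ = 1 := by
  have := Matrix.mem_unitaryGroup_iff.mp hu
  rwa [Matrix.star_eq_conjTranspose] at this

theorem star_mem (u : Matrix Bool Bool ℂ) (hu : u ∈ Matrix.unitaryGroup Bool ℂ) :
    uᴴ ∈ Matrix.unitaryGroup Bool ℂ := by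
  rw [Matrix.mem_unitaryGroup_iff, Matrix.star_eq_conjTranspose, conjTranspose_conjTranspose]
  exact unit_conj u hu

theorem proj_conj (v P : Matrix Bool Bool ℂ) (hv : v ∈ Matrix.unitaryGroup Bool ℂ)
    (hP : Proj P) : Proj (v * P * vᴴ) := by
  constructor
  · rw [conjTranspose_mul, conjTranspose_mul, conjTranspose_conjTranspose, hP.1]
    simp only [Matrix.mul_assoc]
  · have : v * P * vᴴ * (v * P * vᴴ) = v * P * (vᴴ * v) * P * vᴴ := by
      simp only [Matrix.mul_assoc]
    rw [this, unit_conj v hv, mul_one, Matrix.mul_assoc v P P, hP.2]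

theorem hz_unit : (2 : ℂ) • hz ∈ Matrix.unitaryGroup Bool ℂ := by
  rw [Matrix.mem_unitaryGroup_iff, Matrix.star_eq_conjTranspose]
  ext i j
  rw [Matrix.mul_apply, Fintype.sum_bool]
  simp only [Matrix.conjTranspose_apply, Matrix.smul_apply]
  cases i <;> cases j <;> simp [hz]

variable (b : Bool) (v : Matrix Bool Bool ℂ)

/-- the local state in a rotated basis -/
noncomputable def sg (b : Bool) (v : Matrix Bool Bool ℂ) : Matrix Bool Bool ℂ := v * dg b * vᴴ

theorem av_scale (X S : Matrix Bool Bool ℂ) (hX : Av 1 X)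
    (h : S = (1 / 2 : ℂ) • X) : Av (1 / 2) S := by
  intro u w hu hw i j
  have h1 : u * S * w = (1 / 2 : ℂ) • (u * X * w) := by
    rw [h]
    simp only [smul_mul_assoc, mul_smul_comm]
  rw [h1, Matrix.smul_apply, smul_eq_mul, norm_mul]
  have h4 : ‖(1 / 2 : ℂ)‖ = 1 / 2 := by norm_num
  rw [h4]
  have := hX u w hu hw i j
  linarith

theorem av_sg_right (hv : v ∈ Matrix.unitaryGroup Bool ℂ) (X : Matrix Bool Bool ℂ)
    (hX : Av 1 X) : Av (cc b) (X * sg b v) := by
  cases b with
  | true =>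
    have hS : v * ((2 : ℂ) • hz) * vᴴ ∈ Matrix.unitaryGroup Bool ℂ :=
      mul_mem (mul_mem hv hz_unit) (star_mem v hv)
    have h1 := av_unit_right 1 X _ hX hS
    have h2 : X * sg true v = (1 / 2 : ℂ) • (X * (v * ((2 : ℂ) • hz) * vᴴ)) := by
      unfold sg dg
      rw [if_pos rfl]
      simp only [smul_mul_assoc, mul_smul_comm, smul_smul]
      norm_num
    have h3 := av_scale _ _ h1 h2
    unfold cc
    rwa [if_pos rfl]
  | false =>
    have hP : Proj (sg false v) := proj_conj v e0 hv e0_proj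
    have := av_proj_right 1 X _ hX hP
    unfold cc
    rwa [if_neg (by simp)]

theorem av_sg_left (hv : v ∈ Matrix.unitaryGroup Bool ℂ) (X : Matrix Bool Bool ℂ)
    (hX : Av 1 X) : Av (cc b) (sg b v * X) := by
  cases b with
  | true =>
    have hS : v * ((2 : ℂ) • hz) * vᴴ ∈ Matrix.unitaryGroup Bool ℂ :=
      mul_mem (mul_mem hv hz_unit) (star_mem v hv)
    have h1 := av_unit_left 1 X _ hX hS
    have h2 : sg true v * X = (1 / 2 : ℂ) • ((v * ((2 : ℂ) • hz) * vᴴ) * X) := by
      unfold sg dg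
      rw [if_pos rfl]
      simp only [smul_mul_assoc, mul_smul_comm, smul_smul]
      norm_num
    have h3 := av_scale _ _ h1 h2
    unfold cc
    rwa [if_pos rfl]
  | false =>
    have hP : Proj (sg false v) := proj_conj v e0 hv e0_proj
    have := av_proj_left 1 X _ hX hP
    unfold cc
    rwa [if_neg (by simp)]

/-- rank one projection -/
def Rk (P : Matrix Bool Bool ℂ) : Prop := ∃ u ∈ Matrix.unitaryGroup Bool ℂ, P = u * e0 * uᴴ

theorem t5 (hv : v ∈ Matrix.unitaryGroup Bool ℂ) (X : Matrix Bool Bool ℂ) (hX : Av 1 X) :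
    ‖(sg b v * X).trace‖ ≤ 1 := by
  cases b with
  | true =>
    unfold sg dg
    rw [if_pos rfl, Matrix.mul_assoc _ vᴴ X, tr_hz, norm_mul]
    have h1 := hX vᴴ v (star_mem v hv) hv false false
    have h2 := hX vᴴ v (star_mem v hv) hv true true
    have h3 := norm_sub_le ((vᴴ * X * v) false false) ((vᴴ * X * v) true true)
    have h4 : ‖(1 / 2 : ℂ)‖ = 1 / 2 := by norm_num
    rw [h4]
    linarith
  | false =>
    unfold sg dg
    rw [if_neg (by simp), Matrix.mul_assoc _ vᴴ X, tr_e0]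
    exact hX vᴴ v (star_mem v hv) hv false false

theorem t1 (hv : v ∈ Matrix.unitaryGroup Bool ℂ) (P : Matrix Bool Bool ℂ) (hP : Proj P) :
    ‖(sg b v * P).trace‖ ≤ cc b := by
  cases b with
  | true =>
    have hR := refl_unitary P hP.1 hP.2
    have h0 : P = (1 / 2 : ℂ) • (1 + ((2 : ℂ) • P - 1)) := by module
    have hU : vᴴ * ((2 : ℂ) • P - 1) * v ∈ Matrix.unitaryGroup Bool ℂ :=
      mul_mem (mul_mem (star_mem v hv) hR) hv
    have hE : vᴴ * P * v = (1 / 2 : ℂ) • (1 + vᴴ * ((2 : ℂ) • P - 1) * v) := by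
      conv_lhs => rw [h0]
      simp only [smul_mul_assoc, mul_smul_comm, mul_add, add_mul, mul_one, unit_conj v hv]
    unfold sg dg cc
    rw [if_pos rfl, if_pos rfl, Matrix.mul_assoc _ vᴴ P, tr_hz, hE, norm_mul]
    have h1 := entry_norm_bound_of_unitary hU false false
    have h2 := entry_norm_bound_of_unitary hU true true
    have h3 := norm_sub_le ((vᴴ * ((2 : ℂ) • P - 1) * v) false false)
      ((vᴴ * ((2 : ℂ) • P - 1) * v) true true)
    have h4 : ‖(1 / 2 : ℂ)‖ = 1 / 2 := by norm_num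
    have h5 : ((1 / 2 : ℂ) • (1 + vᴴ * ((2 : ℂ) • P - 1) * v)) false false
        - ((1 / 2 : ℂ) • (1 + vᴴ * ((2 : ℂ) • P - 1) * v)) true true
        = (1 / 2 : ℂ) * ((vᴴ * ((2 : ℂ) • P - 1) * v) false false
          - (vᴴ * ((2 : ℂ) • P - 1) * v) true true) := by
      simp only [Matrix.smul_apply, Matrix.add_apply, Matrix.one_apply_eq, smul_eq_mul]
      ring
    rw [h5, norm_mul, h4]
    linarith
  | false =>
    have h1 := t5 false v hv P (av_proj P hP)
    unfold cc
    rwa [if_neg (by simp)]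

theorem t2 (hv : v ∈ Matrix.unitaryGroup Bool ℂ) (X P : Matrix Bool Bool ℂ) (hX : Av 1 X)
    (hP : Rk P) : ‖(sg b v * (P * X)).trace‖ ≤ cc b := by
  obtain ⟨u, hu, rfl⟩ := hP
  have h1 : sg b v * (u * e0 * uᴴ * X) = (sg b v * u) * e0 * (uᴴ * X) := by
    simp only [Matrix.mul_assoc]
  have h2 : uᴴ * X * (sg b v * u) = uᴴ * (X * sg b v) * u := by
    simp only [Matrix.mul_assoc]
  rw [h1, tr_e0, h2]
  exact av_sg_right b v hv X hX uᴴ u (star_mem u hu) hu false false

theorem t3 (hv : v ∈ Matrix.unitaryGroup Bool ℂ) (X P : Matrix Bool Bool ℂ) (hX : Av 1 X)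
    (hP : Rk P) : ‖(sg b v * (X * P)).trace‖ ≤ cc b := by
  obtain ⟨u, hu, rfl⟩ := hP
  have h1 : sg b v * (X * (u * e0 * uᴴ)) = (sg b v * X * u) * e0 * uᴴ := by
    simp only [Matrix.mul_assoc]
  have h2 : uᴴ * (sg b v * X * u) = uᴴ * (sg b v * X) * u := by
    simp only [Matrix.mul_assoc]
  rw [h1, tr_e0, h2]
  exact av_sg_left b v hv X hX uᴴ u (star_mem u hu) hu false false

theorem rk_proj (P : Matrix Bool Bool ℂ) (hP : Rk P) : Proj P := by
  obtain ⟨u, hu, rfl⟩ := hP
  exact proj_conj u e0 hu e0_proj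

theorem t4 (hv : v ∈ Matrix.unitaryGroup Bool ℂ) (X P : Matrix Bool Bool ℂ) (hX : Av 1 X)
    (hP : Rk P) : ‖(sg b v * (P * X * P)).trace‖ ≤ cc b :=
  t3 b v hv (P * X) P (av_proj_left 1 X P hX (rk_proj P hP)) hP

end P368H
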