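import Vale.Agent.P368H.Two
import Vale.Agent.P368H.CorrDef

namespace P368H

open Matrix Finset

set_option linter.unusedSectionVars false
set_option linter.unusedSimpArgs false

section nf

variable {Q : Type} [Fintype Q] [DecidableEq Q]

/-- normal form with `k` Toffoli layers -/
def NF : ℕ → Matrix (Q → Bool) (Q → Bool) ℂ → Prop
  | 0, M => ∃ v : Q → Matrix Bool Bool ℂ, (∀ q, v q ∈ Matrix.unitaryGroup Bool ℂ) ∧ M = ten v
  | k + 1, M => ∃ (v : Q → Matrix Bool Bool ℂ) (l : List (Toffoli Q))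
      (M' : Matrix (Q → Bool) (Q → Bool) ℂ), (∀ q, v q ∈ Matrix.unitaryGroup Bool ℂ) ∧
      l.Pairwise (fun g h => Disjoint g.supp h.supp) ∧ NF k M' ∧ M = ten v * tof l * M'

theorem NF_succ (k : ℕ) (M : Matrix (Q → Bool) (Q → Bool) ℂ) (h : NF k M) : NF (k + 1) M := by
  refine ⟨fun _ => 1, [], M, fun _ => one_mem _, List.Pairwise.nil, h, ?_⟩
  rw [ten_one]
  simp [tof]

theorem NF_mono (k m : ℕ) (hkm : k ≤ m) (M : Matrix (Q → Bool) (Q → Bool) ℂ) (h : NF k M) :
    NF m M := by
  induction hkm with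
  | refl => exact h
  | step _ ih => exact NF_succ _ _ ih

theorem NF_ten (k : ℕ) (M : Matrix (Q → Bool) (Q → Bool) ℂ) (h : NF k M)
    (w : Q → Matrix Bool Bool ℂ) (hw : ∀ q, w q ∈ Matrix.unitaryGroup Bool ℂ) :
    NF k (ten w * M) := by
  cases k with
  | zero =>
    obtain ⟨v, hv, rfl⟩ := h
    exact ⟨fun q => w q * v q, fun q => mul_mem (hw q) (hv q), ten_mul w v⟩
  | succ k =>
    obtain ⟨v, l, M', hv, hl, hM', rfl⟩ := h
    refine ⟨fun q => w q * v q, l, M', fun q => mul_mem (hw q) (hv q), hl, hM', ?_⟩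
    rw [← ten_mul]
    simp only [Matrix.mul_assoc]

theorem NF_circ (c : List (Layer Q)) : NF (entDepth c) (circ c) := by
  induction c with
  | nil =>
    exact ⟨fun _ => 1, fun _ => one_mem _, by rw [ten_one]; simp [circ]⟩
  | cons L c ih =>
    have hc : circ (L :: c) = L.mat * circ c := by
      unfold circ
      rw [List.map_cons, List.prod_cons]
    have h1 := NF_ten _ _ ih L.V L.V_unitary
    rw [hc]
    unfold Layer.mat
    by_cases hg : L.gates = []
    · have hd : entDepth (L :: c) = entDepth c := by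
        unfold entDepth
        rw [List.filter_cons]
        simp [hg]
      rw [hd, hg, Matrix.mul_assoc]
      simpa [tof] using h1
    · have hd : entDepth (L :: c) = entDepth c + 1 := by
        unfold entDepth
        rw [List.filter_cons]
        simp [hg]
      rw [hd]
      refine ⟨fun _ => 1, L.gates, ten L.V * circ c, fun _ => one_mem _, L.disj, h1, ?_⟩
      rw [ten_one, one_mul, Matrix.mul_assoc]

end nf

variable {n a : ℕ}

/-- Pauli `Z` -/
def pz : Matrix Bool Bool ℂ := fun i j => if i = j then (if i = false then 1 else -1) else 0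

theorem pz_unit : pz ∈ Matrix.unitaryGroup Bool ℂ := by
  rw [Matrix.mem_unitaryGroup_iff, Matrix.star_eq_conjTranspose]
  ext i j
  rw [Matrix.mul_apply, Fintype.sum_bool]
  simp only [Matrix.conjTranspose_apply]
  cases i <;> cases j <;> simp [pz]

/-- sign of a bit -/
def sb (b : Bool) : ℝ := if b = false then 1 else -1

theorem ten_pz (o : Fin n ⊕ Fin a) :
    ten (fun q => if q = o then pz else 1) = Matrix.diagonal
      (fun z : Fin n ⊕ Fin a → Bool => ((sb (z o) : ℝ) : ℂ)) := by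
  ext z y
  by_cases h : z = y
  · subst h
    rw [Matrix.diagonal_apply_eq]
    unfold ten
    rw [Finset.prod_eq_single_of_mem o (Finset.mem_univ o)]
    · beta_reduce
      rw [if_pos rfl]
      cases hz : z o <;> simp [pz, sb]
    · intro q _ hq
      beta_reduce
      rw [if_neg hq]
      exact Matrix.one_apply_eq _
  · rw [Matrix.diagonal_apply_ne _ h]
    obtain ⟨q, hq⟩ := Function.ne_iff.mp h
    refine Finset.prod_eq_zero (Finset.mem_univ q) ?_
    beta_reduce
    by_cases hqo : q = o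
    · rw [if_pos hqo]
      simp [pz, hq]
    · rw [if_neg hqo]
      exact Matrix.one_apply_ne hq

/-- type of a qubit -/
def bt : Fin n ⊕ Fin a → Bool := Sum.elim (fun _ => true) (fun _ => false)

theorem entry_eq (U : Matrix (Fin n ⊕ Fin a → Bool) (Fin n ⊕ Fin a → Bool) ℂ)
    (o : Fin n ⊕ Fin a) (s : Fin n ⊕ Fin a → Bool) :
    (Uᴴ * ten (fun q => if q = o then pz else 1) * U) s s
      = ((∑ z, sb (z o) * ‖U z s‖ ^ 2 : ℝ) : ℂ) := by
  rw [ten_pz, Matrix.mul_apply]
  push_cast
  refine Finset.sum_congr rfl fun z _ => ?_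
  rw [Matrix.mul_diagonal, Matrix.conjTranspose_apply]
  have h : star (U z s) * U z s = ((‖U z s‖ ^ 2 : ℝ) : ℂ) := by
    have := Complex.conj_mul' (U z s)
    push_cast
    exact this
  calc star (U z s) * ((sb (z o) : ℝ) : ℂ) * U z s
      = ((sb (z o) : ℝ) : ℂ) * (star (U z s) * U z s) := by ring
    _ = ((sb (z o) : ℝ) : ℂ) * (‖U z s‖ : ℂ) ^ 2 := by rw [h]; push_cast; rfl

theorem prob_diff (U : Matrix (Fin n ⊕ Fin a → Bool) (Fin n ⊕ Fin a → Bool) ℂ)
    (x : Fin n → Bool) (o : Fin n ⊕ Fin a) :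
    prob U x o (parity x) - prob U x o (!parity x)
      = sb (parity x) * ∑ z, sb (z o) * ‖U z (start x)‖ ^ 2 := by
  unfold prob
  rw [Finset.sum_filter, Finset.sum_filter, ← Finset.sum_sub_distrib, Finset.mul_sum]
  refine Finset.sum_congr rfl fun z _ => ?_
  cases hp : parity x <;> cases hz : z o <;> simp [sb]

theorem prod_sign (x : Fin n → Bool) :
    ∏ i, (if x i = false then (1 / 2 : ℝ) else -(1 / 2)) = sb (parity x) / 2 ^ n := by
  have h1 : ∀ i, (if x i = false then (1 / 2 : ℝ) else -(1 / 2))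
      = (1 / 2) * (if x i = true then -1 else 1) := by
    intro i
    cases x i <;> norm_num
  rw [Finset.prod_congr rfl fun i _ => h1 i, Finset.prod_mul_distrib, Finset.prod_const,
    Finset.prod_ite, Finset.prod_const, Finset.prod_const_one, mul_one, Finset.card_univ,
    Fintype.card_fin]
  have hh : ((1 : ℝ) / 2) ^ n = 1 / 2 ^ n := by rw [one_div, inv_pow, one_div]
  unfold parity sb
  by_cases h : Odd (Finset.univ.filter (fun i => x i = true)).card
  · rw [h.neg_one_pow, decide_eq_true h, hh, if_neg (by simp)]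
    ring
  · rw [(Nat.not_odd_iff_even.mp h).neg_one_pow, decide_eq_false h, hh, if_pos rfl]
    ring

theorem dg_diag (b : Bool) (i j : Bool) (h : i ≠ j) : dg b i j = 0 := by
  cases b <;> cases i <;> cases j <;> simp_all [dg, hz, e0]

theorem trace_eq (M : Matrix (Fin n ⊕ Fin a → Bool) (Fin n ⊕ Fin a → Bool) ℂ) :
    (ten (fun q => dg (bt q)) * M).trace
      = ∑ x : Fin n → Bool, ((sb (parity x) / 2 ^ n : ℝ) : ℂ) * M (start x) (start x) := by
  have hD : ten (fun q : Fin n ⊕ Fin a => dg (bt q)) = Matrix.diagonal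
      (fun z => ∏ q, dg (bt q) (z q) (z q)) := by
    ext z y
    by_cases h : z = y
    · subst h
      rw [Matrix.diagonal_apply_eq]
      rfl
    · rw [Matrix.diagonal_apply_ne _ h]
      obtain ⟨q, hq⟩ := Function.ne_iff.mp h
      exact Finset.prod_eq_zero (Finset.mem_univ q) (dg_diag _ _ _ hq)
  rw [hD]
  simp only [Matrix.trace, Matrix.diag, Matrix.diagonal_mul]
  rw [← (Equiv.sumArrowEquivProdArrow (Fin n) (Fin a) Bool).symm.sum_comp, Fintype.sum_prod_type]
  refine Finset.sum_congr rfl fun x _ => ?_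
  rw [Finset.sum_eq_single_of_mem (fun _ => false) (Finset.mem_univ _)]
  · have hs : (Equiv.sumArrowEquivProdArrow (Fin n) (Fin a) Bool).symm (x, fun _ => false)
        = start x := rfl
    rw [hs, Fintype.prod_sum_type]
    have h1 : ∏ i : Fin a, dg (bt (Sum.inr i : Fin n ⊕ Fin a))
        ((start x : Fin n ⊕ Fin a → Bool) (Sum.inr i))
        ((start x : Fin n ⊕ Fin a → Bool) (Sum.inr i)) = 1 := by
      refine Finset.prod_eq_one fun i _ => ?_
      simp [bt, start, dg, e0]
    have h2 : ∏ i : Fin n, dg (bt (Sum.inl i : Fin n ⊕ Fin a))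
        ((start x : Fin n ⊕ Fin a → Bool) (Sum.inl i))
        ((start x : Fin n ⊕ Fin a → Bool) (Sum.inl i)) = ((sb (parity x) / 2 ^ n : ℝ) : ℂ) := by
      rw [← prod_sign]
      push_cast
      refine Finset.prod_congr rfl fun i _ => ?_
      cases hx : x i <;> simp [bt, start, dg, hz, hx]
    rw [h1, h2, mul_one]
  · intro w _ hw
    obtain ⟨i, hi⟩ := Function.ne_iff.mp hw
    have hwi : w i = true := by
      cases h : w i
      · exact absurd h hi
      · rfl
    rw [Finset.prod_eq_zero (Finset.mem_univ (Sum.inr i : Fin n ⊕ Fin a)), zero_mul]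
    have : (Equiv.sumArrowEquivProdArrow (Fin n) (Fin a) Bool).symm (x, w) (Sum.inr i) = w i := rfl
    rw [this, hwi]
    simp [bt, dg, e0]

theorem corr_eq (U : Matrix (Fin n ⊕ Fin a → Bool) (Fin n ⊕ Fin a → Bool) ℂ)
    (o : Fin n ⊕ Fin a) :
    ((corr U o : ℝ) : ℂ) = (ten (fun q => dg (bt q)) *
      (Uᴴ * ten (fun q => if q = o then pz else 1) * U)).trace := by
  rw [trace_eq]
  unfold corr
  rw [Finset.sum_div]
  push_cast
  refine Finset.sum_congr rfl fun x _ => ?_
  rw [entry_eq]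
  have := prob_diff U x o
  rw [← Complex.ofReal_sub, this]
  push_cast
  ring

theorem prod_bt : ∏ q : Fin n ⊕ Fin a, cc (bt q) = (1 / 2) ^ n := by
  rw [Fintype.prod_sum_type]
  simp [bt, cc]

theorem main (n a : ℕ) (c : List (Layer (Fin n ⊕ Fin a))) (hc : entDepth c ≤ 2)
    (o : Fin n ⊕ Fin a) : |corr (circ c) o| ≤ 90 * (2 : ℝ) ^ (-(n : ℝ) / 4) := by
  have hNF := NF_mono _ 2 hc _ (NF_circ c)
  obtain ⟨v2, l2, M1, hv2, hl2, ⟨v1, l1, M0, hv1, hl1, ⟨v0, hv0, rfl⟩, rfl⟩, hM⟩ := hNF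
  have hU : circ c = ten v2 * tof l2 * ten v1 * tof l1 * ten v0 := by
    rw [hM]
    simp only [Matrix.mul_assoc]
  set K : ℝ := 10 * (2 : ℝ) ^ (-(n : ℝ) / 4) with hK
  have hK0 : 0 ≤ K := by positivity
  have hK4 : 10 ^ 4 * ∏ q : Fin n ⊕ Fin a, cc (bt q) ≤ K ^ 4 := by
    rw [prod_bt, hK, mul_pow]
    apply le_of_eq
    congr 1
    rw [← Real.rpow_natCast ((2 : ℝ) ^ (-(n : ℝ) / 4)) 4, ← Real.rpow_mul (by norm_num)]
    have : -(n : ℝ) / 4 * ((4 : ℕ) : ℝ) = -(n : ℝ) := by push_cast; ring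
    rw [this, Real.rpow_neg (by norm_num), Real.rpow_natCast, one_div, inv_pow]
  have h := two_bound bt v0 v1 v2 hv0 hv1 hv2 l1 l2 hl1 hl2 o pz pz_unit K hK0 hK4
  rw [← hU, ← corr_eq, Complex.norm_real, Real.norm_eq_abs] at h
  calc |corr (circ c) o| ≤ 9 * K := h
    _ = 90 * (2 : ℝ) ^ (-(n : ℝ) / 4) := by rw [hK]; ring

end P368H
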