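import Vale.Agent.P368H.Fin

namespace P368H

open Matrix Finset

set_option linter.unusedSectionVars false
set_option linter.unusedSimpArgs false

variable {Q : Type} [Fintype Q] [DecidableEq Q]

theorem ten_comm (A B : Q → Matrix Bool Bool ℂ) (h : ∀ q, A q * B q = B q * A q) :
    ten A * ten B = ten B * ten A := by
  rw [ten_mul, ten_mul]
  congr 1
  funext q
  exact h q

theorem mat_comm_ten (g : Toffoli Q) (β : Q → Matrix Bool Bool ℂ)
    (h : ∀ q ∈ g.supp, β q = 1) : g.mat * ten β = ten β * g.mat := by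
  rw [mat_eq, sub_mul, mul_sub, one_mul, mul_one, smul_mul_assoc, mul_smul_comm,
    ten_comm (pr g) β]
  intro q
  by_cases hq : q ∈ g.supp
  · rw [h q hq, mul_one, one_mul]
  · rw [pr_off g q hq, mul_one, one_mul]

theorem mat_comm (g g' : Toffoli Q) (h : Disjoint g.supp g'.supp) :
    g.mat * g'.mat = g'.mat * g.mat := by
  rw [mat_eq g', mul_sub, sub_mul, one_mul, mul_one, smul_mul_assoc, mul_smul_comm,
    mat_comm_ten g (pr g') fun q hq => pr_off g' q fun hq' => (Finset.disjoint_left.mp h) hq hq']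

theorem tof_fix (l : List (Toffoli Q)) (X : Matrix (Q → Bool) (Q → Bool) ℂ)
    (h : ∀ g ∈ l, g.mat * X = X * g.mat) : (tof l)ᴴ * X * tof l = X := by
  induction l with
  | nil => simp [tof]
  | cons g l ih =>
    unfold tof
    rw [List.map_cons, List.prod_cons, conjTranspose_mul, mat_star]
    have h1 := h g List.mem_cons_self
    have h2 := ih fun g' hg' => h g' (List.mem_cons_of_mem g hg')
    unfold tof at h2
    have h3 : (List.map Toffoli.mat l).prodᴴ * g.mat * X * (g.mat * (List.map Toffoli.mat l).prod)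
        = (List.map Toffoli.mat l).prodᴴ * (g.mat * X * g.mat) * (List.map Toffoli.mat l).prod := by
      simp only [Matrix.mul_assoc]
    rw [h3, h1, Matrix.mul_assoc X, mat_sq, mul_one, h2]

/-- the last Toffoli layer acts on a one-qubit observable through at most one gate -/
theorem last_layer (o : Q) (α : Q → Matrix Bool Bool ℂ) (hα : ∀ q, q ≠ o → α q = 1)
    (l : List (Toffoli Q)) (hl : l.Pairwise (fun g h => Disjoint g.supp h.supp)) :
    (tof l)ᴴ * ten α * tof l = ten α ∨
      ∃ g : Toffoli Q, (tof l)ᴴ * ten α * tof l = g.mat * ten α * g.mat := by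
  induction l with
  | nil => left; simp [tof]
  | cons g l ih =>
    rw [List.pairwise_cons] at hl
    have h3 : (tof (g :: l))ᴴ * ten α * tof (g :: l)
        = (tof l)ᴴ * (g.mat * ten α * g.mat) * tof l := by
      unfold tof
      rw [List.map_cons, List.prod_cons, conjTranspose_mul, mat_star]
      simp only [Matrix.mul_assoc]
    rw [h3]
    by_cases ho : o ∈ g.supp
    · right
      refine ⟨g, tof_fix l _ fun g' hg' => ?_⟩
      have hd := hl.1 g' hg'
      have ho' : o ∉ g'.supp := fun h => (Finset.disjoint_left.mp hd) ho h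
      have hc1 := mat_comm g g' hd
      have hc2 := mat_comm_ten g' α fun q hq => hα q fun h => ho' (h ▸ hq)
      calc g'.mat * (g.mat * ten α * g.mat) = (g'.mat * g.mat) * (ten α * g.mat) := by
            simp only [Matrix.mul_assoc]
        _ = (g.mat * g'.mat) * (ten α * g.mat) := by rw [hc1]
        _ = g.mat * (g'.mat * ten α) * g.mat := by simp only [Matrix.mul_assoc]
        _ = g.mat * (ten α * g'.mat) * g.mat := by rw [hc2]
        _ = g.mat * ten α * (g'.mat * g.mat) := by simp only [Matrix.mul_assoc]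
        _ = g.mat * ten α * (g.mat * g'.mat) := by rw [hc1]
        _ = g.mat * ten α * g.mat * g'.mat := by simp only [Matrix.mul_assoc]
    · have hc := mat_comm_ten g α fun q hq => hα q fun h => ho (h ▸ hq)
      rw [hc, Matrix.mul_assoc (ten α), mat_sq, mul_one]
      exact ih hl.2

/-- the three estimates combined -/
theorem two_bound (b : Q → Bool) (v0 v1 v2 : Q → Matrix Bool Bool ℂ)
    (h0 : ∀ q, v0 q ∈ Matrix.unitaryGroup Bool ℂ) (h1 : ∀ q, v1 q ∈ Matrix.unitaryGroup Bool ℂ)
    (h2 : ∀ q, v2 q ∈ Matrix.unitaryGroup Bool ℂ) (l1 l2 : List (Toffoli Q))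
    (hl1 : l1.Pairwise (fun g h => Disjoint g.supp h.supp))
    (hl2 : l2.Pairwise (fun g h => Disjoint g.supp h.supp)) (o : Q)
    (Z : Matrix Bool Bool ℂ) (hZ : Z ∈ Matrix.unitaryGroup Bool ℂ) (K : ℝ) (hK : 0 ≤ K)
    (hK4 : 10 ^ 4 * ∏ q, cc (b q) ≤ K ^ 4) :
    ‖(ten (fun q => dg (b q)) * ((ten v2 * tof l2 * ten v1 * tof l1 * ten v0)ᴴ *
      ten (fun q => if q = o then Z else 1) *
      (ten v2 * tof l2 * ten v1 * tof l1 * ten v0))).trace‖ ≤ 9 * K := by
  set α : Q → Matrix Bool Bool ℂ := fun q => (v2 q)ᴴ * (if q = o then Z else 1) * v2 q with hα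
  have hα1 : ∀ q, q ≠ o → α q = 1 := by
    intro q hq
    rw [hα]
    dsimp only
    rw [if_neg hq, mul_one]
    exact unit_conj _ (h2 q)
  have hαU : ∀ q, α q ∈ Matrix.unitaryGroup Bool ℂ := by
    intro q
    rw [hα]
    dsimp only
    refine mul_mem (mul_mem (star_mem _ (h2 q)) ?_) (h2 q)
    split_ifs
    · exact hZ
    · exact one_mem _
  have hX : (ten v2)ᴴ * ten (fun q => if q = o then Z else 1) * ten v2 = ten α := by
    rw [ten_star, ten_mul, ten_mul]
  have hmain : ∀ β : Q → Matrix Bool Bool ℂ, (∀ q, q ≠ o → Proj (β q)) → (∀ q, Av 1 (β q)) →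
      ‖Fn (sig b (fun q => (v0 q))) l1 ((ten v1)ᴴ * ten β * ten v1)‖ ≤ K := by
    intro β hβ hA
    rw [ten_star, ten_mul, ten_mul]
    have hp : ∀ q, q ≠ o → Proj ((v1 q)ᴴ * β q * v1 q) := by
      intro q hq
      have := proj_conj (v1 q)ᴴ (β q) (star_mem _ (h1 q)) (hβ q hq)
      rwa [conjTranspose_conjTranspose] at this
    have ha : ∀ q, Av 1 ((v1 q)ᴴ * β q * v1 q) := fun q =>
      av_unit_right 1 _ _ (av_unit_left 1 _ _ (hA q) (star_mem _ (h1 q))) (h1 q)
    have h4 := Fn_bound b v0 h0 l1 hl1 (fun q => (v1 q)ᴴ * β q * v1 q) o hp ha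
    exact le_of_pow_le_pow_left₀ (by norm_num) hK (h4.trans hK4)
  have htr : (ten (fun q => dg (b q)) * ((ten v2 * tof l2 * ten v1 * tof l1 * ten v0)ᴴ *
      ten (fun q => if q = o then Z else 1) *
      (ten v2 * tof l2 * ten v1 * tof l1 * ten v0))).trace
      = Fn (sig b v0) l1 ((ten v1)ᴴ * ((tof l2)ᴴ * ten α * tof l2) * ten v1) := by
    rw [← hX]
    unfold Fn
    have e1 : ten (sig b v0) = ten v0 * ten (fun q => dg (b q)) * (ten v0)ᴴ := by
      rw [ten_star, ten_mul, ten_mul]
      rfl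
    rw [e1]
    simp only [conjTranspose_mul]
    have e2 : ten v0 * ten (fun q => dg (b q)) * (ten v0)ᴴ *
        ((tof l1)ᴴ * ((ten v1)ᴴ * ((tof l2)ᴴ * ((ten v2)ᴴ * ten (fun q => if q = o then Z else 1)
          * ten v2) * tof l2) * ten v1) * tof l1)
        = ten v0 * (ten (fun q => dg (b q)) * (ten v0)ᴴ *
        ((tof l1)ᴴ * ((ten v1)ᴴ * ((tof l2)ᴴ * ((ten v2)ᴴ * ten (fun q => if q = o then Z else 1)
          * ten v2) * tof l2) * ten v1) * tof l1)) := by
      simp only [Matrix.mul_assoc]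
    rw [e2, Matrix.trace_mul_comm (ten v0)]
    simp only [Matrix.mul_assoc]
  rw [htr]
  have hAα : ∀ q, Av 1 (α q) := fun q => av_unitary _ (hαU q)
  rcases last_layer o α hα1 l2 hl2 with h | ⟨g, h⟩
  · rw [h]
    have := hmain α (fun q hq => by rw [hα1 q hq]; exact proj_one) hAα
    linarith
  · rw [h, conj_ten]
    have hlin : (ten v1)ᴴ * (ten α - (2 : ℂ) • ten (fun q => pr g q * α q)
        - (2 : ℂ) • ten (fun q => α q * pr g q)
        + (4 : ℂ) • ten (fun q => pr g q * α q * pr g q)) * ten v1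
        = (ten v1)ᴴ * ten α * ten v1 - (2 : ℂ) • ((ten v1)ᴴ * ten (fun q => pr g q * α q) * ten v1)
          - (2 : ℂ) • ((ten v1)ᴴ * ten (fun q => α q * pr g q) * ten v1)
          + (4 : ℂ) • ((ten v1)ᴴ * ten (fun q => pr g q * α q * pr g q) * ten v1) := by
      simp only [mul_add, mul_sub, add_mul, sub_mul, smul_mul_assoc, mul_smul_comm]
    have hprP : ∀ q, Proj (pr g q) := fun q => ⟨pr_star g q, pr_sq g q⟩
    rw [hlin, Fn_lin]
    refine (norm4 _ _ _ _).trans ?_
    have b1 := hmain α (fun q hq => by rw [hα1 q hq]; exact proj_one) hAα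
    have b2 := hmain (fun q => pr g q * α q)
      (fun q hq => by
        rw [hα1 q hq, mul_one]; exact hprP q)
      (fun q => av_proj_left 1 _ _ (hAα q) (hprP q))
    have b3 := hmain (fun q => α q * pr g q)
      (fun q hq => by
        rw [hα1 q hq, one_mul]; exact hprP q)
      (fun q => av_proj_right 1 _ _ (hAα q) (hprP q))
    have b4 := hmain (fun q => pr g q * α q * pr g q)
      (fun q hq => by
        rw [hα1 q hq, mul_one, pr_sq]; exact hprP q)
      (fun q => av_proj_right 1 _ _ (av_proj_left 1 _ _ (hAα q) (hprP q)) (hprP q))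
    linarith

end P368H
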